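import Vale.Agent.P208.Interfaces

/-!
P208: a union of thin children around a skeleton is doubling with the same constant, and coverings
pass to subsets and similar images.
-/

noncomputable section

open Metric Set

namespace Vale.Agent.P208

/-- Doubling of a union of thin children around a skeleton. -/
theorem unionCovering_ok : UnionCovering := by
  intro X _ ι S Y H K hS _ hnear hlip hsep hY p hp r hr
  by_cases hbig : ∀ i x, x ∈ Y i → dist x p ≤ r → H i x ≤ 4 * r
  · obtain ⟨C, hC, hd⟩ := hS p (2 * r) (by linarith)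
    refine ⟨fun j => {x | ∃ y ∈ C j, dist x y ≤ r / 30}, ?_, ?_⟩
    · rintro x ⟨hx, hxp⟩
      obtain ⟨i, hi⟩ := mem_iUnion.1 hx
      obtain ⟨y, hyS, hxy⟩ := hnear i x hi
      have hH := hbig i x hi (mem_closedBall.1 hxp)
      have hyp : dist y p ≤ 2 * r := by
        linarith [dist_triangle y x p, dist_comm y x, mem_closedBall.1 hxp]
      obtain ⟨j, hj⟩ := mem_iUnion.1 (hC ⟨hyS, mem_closedBall.2 hyp⟩)
      exact mem_iUnion.2 ⟨j, y, hj, by linarith⟩
    · rintro j x ⟨x', hx', hxx'⟩ y ⟨y', hy', hyy'⟩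
      linarith [dist_triangle x x' y, dist_triangle x' y' y, dist_comm y' y, hd j x' hx' y' hy']
  · push Not at hbig
    obtain ⟨i, x, hx, hxp, hbig⟩ := hbig
    have hone : ∀ y ∈ ⋃ j, Y j, dist y p ≤ r → y ∈ Y i := by
      intro y hy hyp
      obtain ⟨j, hj⟩ := mem_iUnion.1 hy
      rcases eq_or_ne i j with rfl | hij
      · exact hj
      · linarith [hsep i j x y hij hx hj, dist_triangle x p y, dist_comm p y]
    obtain ⟨C, hC, hd⟩ := hY i p (hone p hp (by simp [hr.le])) r hr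
    exact ⟨C, fun y hy => hC ⟨hone y hy.1 (mem_closedBall.1 hy.2), hy.2⟩, hd⟩

namespace Covering

variable {X : Type*} [PseudoMetricSpace X] {K : ℕ}

lemma skCov_mono {S T : Set X} (h : SkCov K T) (hST : S ⊆ T) : SkCov K S :=
  fun p r hr => let ⟨C, hC, hd⟩ := h p r hr
    ⟨C, (inter_subset_inter_left _ hST).trans hC, hd⟩

lemma cov_of_skCov {S T : Set X} (h : SkCov K T) (hST : S ⊆ T) : Cov K S :=
  fun p _ r hr => let ⟨C, hC, hd⟩ := skCov_mono h hST p r hr
    ⟨C, hC, fun i x hx y hy => (hd i x hx y hy).trans (by linarith)⟩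

/-- A similar image is doubling with the same constant. -/
lemma cov_image {S : Set X} {F : Type*} [PseudoMetricSpace F] (h : Cov K S) (g : X → F) {σ : ℝ}
    (hσ : 0 < σ) (hg : ∀ x y, dist (g x) (g y) = σ * dist x y) : Cov K (g '' S) := by
  rintro _ ⟨p, hp, rfl⟩ r hr
  obtain ⟨C, hC, hd⟩ := h p hp (r / σ) (by positivity)
  refine ⟨fun i => g '' C i, ?_, ?_⟩
  · rintro _ ⟨⟨x, hx, rfl⟩, hxp⟩
    rw [mem_closedBall, hg, ← le_div_iff₀' hσ] at hxp
    obtain ⟨i, hi⟩ := mem_iUnion.1 (hC ⟨hx, mem_closedBall.2 hxp⟩)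
    exact mem_iUnion.2 ⟨i, x, hi, rfl⟩
  · rintro i _ ⟨x, hx, rfl⟩ _ ⟨y, hy, rfl⟩
    rw [hg]
    refine (mul_le_mul_of_nonneg_left (hd i x hx y hy) hσ.le).trans_eq ?_
    field_simp

/-- The affine similarities used in the construction. -/
lemma dist_similarity {V : Type*} [NormedAddCommGroup V] [NormedSpace ℝ V] (p : V) {σ : ℝ}
    (hσ : 0 ≤ σ) (U : V ≃ₗᵢ[ℝ] V) (x y : V) :
    dist (p + σ • U x) (p + σ • U y) = σ * dist x y := by
  rw [dist_add_left, dist_smul₀, Real.norm_of_nonneg hσ, U.isometry.dist_eq]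

end Covering

end Vale.Agent.P208
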