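import Vale.Agent.P208.Basic
import Vale.Agent.P208.Covering.Union

/-!
P208: coordinates and bounds for the wires, and the geometry of the segment similarity.
-/

noncomputable section

open Metric Set

namespace Vale.Agent.P208.Covering

variable {m : ℕ}

lemma tco_add (x y : E m) : tco (x + y) = tco x + tco y := rfl

lemma tco_sub (x y : E m) : tco (x - y) = tco x - tco y := rfl

lemma tco_smul (a : ℝ) (x : E m) : tco (a • x) = a * tco x := rfl

lemma tco_eT : tco (eT : E m) = 1 := eT_t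

lemma tco_eZ : tco (eZ : E m) = 0 := eZ_t

lemma tco_wireL (w : Wire m) (x : ℝ) : tco (wireL w x) = 0 := wireL_t w x

lemma tco_rungLabel (s : Sheet m) (i : Fin (nN m)) : tco (rungLabel s i) = 0 := by
  cases s <;> simp [rungLabel, tco]

lemma abs_tco_le (x : E m) : |tco x| ≤ ‖x‖ := by
  simpa [tco] using PiLp.norm_apply_le x (Sum.inl 0)

/-! ### Parameters and profiles -/

lemma pow_le_nN (hm : Big m) : (m : ℝ) ^ 6 ≤ nN m := by exact_mod_cast nN_ge hm

lemma gridDen_ge (hm : Big m) : r0 m ≤ gridDen m :=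
  calc r0 m ≤ bN m * r0 m := Nat.le_mul_of_pos_left _ (bN_pos hm)
    _ ≤ bN m * r0 m * r1 m := Nat.le_mul_of_pos_right _ (r1_pos hm)
    _ ≤ gridDen m := Nat.le_mul_of_pos_right _ (r2_pos hm)

lemma nN_le_width (hm : Big m) : nN m ≤ width m := by
  have := two_mul_nN_sq_le_width hm
  have : nN m ≤ nN m ^ 2 := Nat.le_self_pow (by norm_num) _
  omega

lemma tauS_le_tau0 (hm : Big m) (s : Sheet m) (x : ℝ) : tauS s x ≤ tau0 m x :=
  (tauS_le_tauRow hm s x).trans (tauRow_le_tau0 hm x)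

lemma bRise_eq_first (hm : Big m) {z : ℝ} (h : z ≤ 1) : bRise m z = z * hN m / bN m := by
  have h1 : (1 : ℝ) ≤ hN m := Nat.one_le_cast.2 (hN_pos hm)
  refine min_eq_left (div_le_div_of_nonneg_right ?_ (Nat.cast_nonneg _))
  nlinarith

lemma bRise_eq_slope (hm : Big m) {z : ℝ} (h : 1 ≤ z) :
    bRise m z = ((hN m : ℝ) + z - 1) / bN m := by
  have h1 : (1 : ℝ) ≤ hN m := Nat.one_le_cast.2 (hN_pos hm)
  refine min_eq_right (div_le_div_of_nonneg_right ?_ (Nat.cast_nonneg _))
  nlinarith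

lemma qN_cast (hm : Big m) : (qN m : ℝ) = bN m - hN m + 1 := by
  have : ((qN m + hN m : ℕ) : ℝ) = ((bN m + 1 : ℕ) : ℝ) := by rw [qN_add hm]
  push_cast at this
  linarith

lemma bRise_bounds (hm : Big m) {z : ℝ} :
    (0 ≤ z → z ≤ qN m → 0 ≤ bRise m z ∧ bRise m z ≤ 1) ∧ (qN m ≤ z → 1 ≤ bRise m z) := by
  have hb : (0 : ℝ) < bN m := by exact_mod_cast bN_pos hm
  have hhb : (hN m : ℝ) ≤ bN m := by exact_mod_cast hN_le_bN hm
  have hq : (1 : ℝ) ≤ qN m := by exact_mod_cast qN_pos m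
  constructor
  · intro h0 hz
    rcases le_total z 1 with h | h
    · rw [bRise_eq_first hm h, div_le_one hb]
      exact ⟨by positivity, by nlinarith⟩
    · rw [bRise_eq_slope hm h, div_le_one hb]
      rw [qN_cast hm] at hz
      have h1 : (0 : ℝ) ≤ hN m := Nat.cast_nonneg _
      exact ⟨div_nonneg (by linarith) hb.le, by linarith⟩
  · intro hz
    rw [bRise_eq_slope hm (hq.trans hz), one_le_div₀ hb]
    rw [qN_cast hm] at hz; linarith

/-- The label profile is affine between consecutive integers. -/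
lemma bProf_affine (hm : Big m) {i : ℕ} (hi : i < nN m) {d : ℝ} (h0 : 0 ≤ d) (h1 : d ≤ 1) :
    bProf m (i + d) = (1 - d) * bProf m i + d * bProf m ((i + 1 : ℕ) : ℝ) := by
  have hn : (nN m : ℝ) = 2 * qN m + m := by simp [nN]
  have hrise : ∀ z : ℝ, 0 ≤ z → z ≤ qN m → bProf m z = bRise m z := fun z a b => by
    have h := (bRise_bounds hm).1 a b
    have h' := (bRise_bounds hm (z := nN m - z)).2
      (by rw [hn]; linarith [(Nat.cast_nonneg m : (0 : ℝ) ≤ m)])
    rw [bProf, min_eq_left (h.2.trans h'), min_eq_right h.2, max_eq_right h.1]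
  have hfall : ∀ z : ℝ, (qN m : ℝ) + m ≤ z → z ≤ nN m → bProf m z = bRise m (nN m - z) :=
    fun z a b => by
      have h := (bRise_bounds hm (z := nN m - z)).1 (by linarith) (by rw [hn]; linarith)
      have h' := (bRise_bounds hm).2 (show (qN m : ℝ) ≤ z by
        linarith [(Nat.cast_nonneg m : (0 : ℝ) ≤ m)])
      rw [bProf, min_eq_right (h.2.trans h'), min_eq_right h.2, max_eq_right h.1]
  have hmid : ∀ z : ℝ, (qN m : ℝ) ≤ z → z ≤ qN m + m → bProf m z = 1 :=
    fun z a b => bProf_eq_one hm a (by linarith)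
  have h2 : ((i + 1 : ℕ) : ℝ) = i + 1 := Nat.cast_succ i
  rcases lt_or_ge i (qN m) with hq | hq
  · have hq' : ((i + 1 : ℕ) : ℝ) ≤ qN m := Nat.cast_le.2 hq
    have hp := (Nat.cast_nonneg i : (0 : ℝ) ≤ i)
    rw [hrise _ (by linarith) (by linarith), hrise _ hp (by linarith),
      hrise _ (by linarith) hq', h2]
    rcases Nat.eq_zero_or_pos i with rfl | hi0
    · rw [Nat.cast_zero, zero_add, zero_add, bRise_eq_first hm h1, bRise_eq_first hm zero_le_one,
        bRise_eq_first hm le_rfl]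
      ring
    · have hi1 : (1 : ℝ) ≤ i := Nat.one_le_cast.2 hi0
      rw [bRise_eq_slope hm (by linarith), bRise_eq_slope hm hi1,
        bRise_eq_slope hm (by linarith)]
      ring
  rcases lt_or_ge i (qN m + m) with hq2 | hq2
  · have a : (qN m : ℝ) ≤ i := Nat.cast_le.2 hq
    have b : ((i + 1 : ℕ) : ℝ) ≤ ((qN m + m : ℕ) : ℝ) := Nat.cast_le.2 hq2
    push_cast at b
    rw [hmid _ (by linarith) (by linarith), hmid _ a (by linarith), h2,
      hmid _ (by linarith) (by linarith)]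
    ring
  · have a : ((qN m + m : ℕ) : ℝ) ≤ i := Nat.cast_le.2 hq2
    have b : ((i + 1 : ℕ) : ℝ) ≤ nN m := Nat.cast_le.2 hi
    push_cast at a
    rw [hfall _ (by linarith) (by linarith), hfall _ a (by linarith), h2,
      hfall _ (by linarith) (by linarith)]
    rcases eq_or_lt_of_le (Nat.succ_le_of_lt hi) with hl | hl
    · have e : (i : ℝ) + 1 = nN m := by rw [← hl]; push_cast; ring
      rw [← e, bRise_eq_first hm (by linarith), bRise_eq_first hm (by linarith),
        bRise_eq_first hm (by linarith)]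
      ring
    · have c : ((i + 1 + 1 : ℕ) : ℝ) ≤ nN m := Nat.cast_le.2 hl
      push_cast at c
      rw [bRise_eq_slope hm (by linarith), bRise_eq_slope hm (by linarith),
        bRise_eq_slope hm (by linarith)]
      ring

/-! ### Wires -/

lemma norm_wireL (hm : Big m) (w : Wire m) (x : ℝ) : ‖wireL w x‖ ≤ tau0 m x := by
  have h0 : 0 ≤ tau0 m x := trap_nonneg _ _ _ _
  rcases w with ⟨_ | j, i⟩ | j | _
  · simpa [wireL] using h0
  · have hs : 0 ≤ tauS (some j) x := trap_nonneg _ _ _ _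
    simp only [wireL, norm_smul, norm_eL, mul_one, Real.norm_eq_abs,
      abs_of_nonneg (mul_nonneg (bProf_nonneg m _) hs)]
    exact (mul_le_of_le_one_left hs (bProf_le_one m _)).trans (tauS_le_tau0 hm _ x)
  · have hs : 0 ≤ tauRow m x := trap_nonneg _ _ _ _
    simp only [wireL, norm_smul, norm_eL, mul_one, Real.norm_eq_abs, abs_of_nonneg hs]
    exact tauRow_le_tau0 hm x
  · simpa [wireL] using h0

lemma wireZ_bounds (cell : Bool) (w : Wire m) (x : ℝ) :
    0 ≤ wireZ cell w x ∧ wireZ cell w x ≤ nN m ∧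
      (cell = false → wireZ cell w x ≤ nN m * tau0 m x) := by
  have h0 : 0 ≤ tau0 m x := trap_nonneg _ _ _ _
  have h1 : tau0 m x ≤ 1 := trap_le_one _ _ _ _
  have key : ∀ a : ℝ, 0 ≤ a → a ≤ nN m →
      0 ≤ a * tau0 m x ∧ a * tau0 m x ≤ nN m ∧ a * tau0 m x ≤ nN m * tau0 m x :=
    fun a ha ha' => ⟨mul_nonneg ha h0, (mul_le_of_le_one_right ha h1).trans ha',
      mul_le_mul_of_nonneg_right ha' h0⟩
  rcases w with ⟨s, i⟩ | j | _
  · have := key i.val (Nat.cast_nonneg _) (Nat.cast_le.2 (Nat.lt_succ_iff.1 i.isLt))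
    exact ⟨this.1, this.2.1, fun _ => this.2.2⟩
  · have := key (rowIdx j) (Nat.cast_nonneg _)
      (Nat.cast_le.2 (by simp only [rowIdx, nN]; omega))
    exact ⟨this.1, this.2.1, fun _ => this.2.2⟩
  · have := key (nN m) (Nat.cast_nonneg _) le_rfl
    cases cell <;> simp [wireZ, this]

lemma norm_wire_sub (A : ℝ) (hA : 0 ≤ A) (hm : Big m) (cell : Bool) (w : Wire m) (k : ℕ) :
    A ≤ ‖wirePt A cell w ((k + 1 : ℕ) : ℝ) - wirePt A cell w k‖ ∧
      ‖wirePt A cell w ((k + 1 : ℕ) : ℝ) - wirePt A cell w k‖ ≤ A + nN m + 2 := by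
  constructor
  · refine le_trans ?_ (abs_tco_le _)
    rw [tco_sub, tco_wirePt, tco_wirePt]
    push_cast
    rw [show A * ((k : ℝ) + 1) - A * k = A by ring, abs_of_nonneg hA]
  · have e : wirePt A cell w ((k + 1 : ℕ) : ℝ) - wirePt A cell w k = A • eT +
        (wireZ cell w ((k + 1 : ℕ) : ℝ) - wireZ cell w k) • eZ +
        (wireL w ((k + 1 : ℕ) : ℝ) - wireL w k) := by
      simp only [wirePt]; push_cast; module
    rw [e]
    refine (norm_add₃_le).trans ?_
    rw [norm_smul, norm_smul, norm_eT, norm_eZ, mul_one, mul_one, Real.norm_eq_abs,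
      Real.norm_eq_abs, abs_of_nonneg hA]
    obtain ⟨a, b, -⟩ := wireZ_bounds cell w ((k + 1 : ℕ) : ℝ)
    obtain ⟨c, d, -⟩ := wireZ_bounds cell w k
    have hz : |wireZ cell w ((k + 1 : ℕ) : ℝ) - wireZ cell w k| ≤ nN m :=
      abs_le.2 ⟨by linarith, by linarith⟩
    have hl : ‖wireL w ((k + 1 : ℕ) : ℝ) - wireL w k‖ ≤ 2 :=
      (norm_sub_le _ _).trans (by
        linarith [(norm_wireL hm w k).trans (trap_le_one _ _ _ _),
          (norm_wireL hm w ((k + 1 : ℕ) : ℝ)).trans (trap_le_one _ _ _ _)])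
    linarith

/-! ### The similarities -/

/-- The image of a point of a thin set: on the segment up to the deviation. -/
lemma segMap_sub (p q : E m) (hpq : p ≠ q) (x : E m) :
    ‖segMap p q x - ((1 - tco x) • p + tco x • q)‖ = ‖q - p‖ * ‖x - tco x • eT‖ := by
  have hL : ‖q - p‖ ≠ 0 := norm_ne_zero_iff.2 (sub_ne_zero.2 hpq.symm)
  have hR : refl eT (dirU p q) (eT : E m) = dirU p q :=
    refl_apply (norm_eT.trans (norm_dirU hpq).symm)
  have e : segMap p q x - ((1 - tco x) • p + tco x • q) =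
      ‖q - p‖ • refl eT (dirU p q) (x - tco x • eT) := by
    rw [map_sub, map_smul, hR, segMap, smul_sub, dirU, smul_comm (tco x) ‖q - p‖⁻¹,
      smul_inv_smul₀ hL]
    module
  rw [e, norm_smul, Real.norm_of_nonneg (norm_nonneg _), LinearIsometryEquiv.norm_map]

lemma dist_segMap (p q x y : E m) :
    dist (segMap p q x) (segMap p q y) = ‖q - p‖ * dist x y :=
  dist_similarity p (norm_nonneg _) _ x y

end Vale.Agent.P208.Covering
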