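import Vale.Agent.P208.Covering.Tree
import Vale.Agent.P208.Embed.Seg

/-!
P208: the segment sets are thin and doubling with the constant of the skeleton.
-/

noncomputable section

open Metric Set

namespace Vale.Agent.P208

namespace Covering

variable {m : ℕ} {S : Set (E m)}

/-- length of a part of a segment -/
def partLen (m : ℕ) : ℝ := (1 - 2 * margin m) / parts m

lemma partLen_bounds (hm : Big m) :
    0 < partLen m ∧ partLen m ≤ thin m * margin m ∧ partLen m * parts m = 1 - 2 * margin m := by
  obtain ⟨h0, h1⟩ := SegRound.margin_le hm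
  have hp : (0 : ℝ) < parts m := Nat.cast_pos.2 (SegRound.parts_pos m)
  have hr : 0 < rootA m := lt_of_lt_of_le one_pos root_aok.one_le
  have hg : (0 : ℝ) < gridDen m := Nat.cast_pos.2 (gridDen_pos hm)
  have ht : 0 < thin m * margin m := by unfold thin; positivity
  have hge : 1 / (thin m * margin m) ≤ parts m :=
    (Nat.le_ceil _).trans (Nat.cast_le.2 (Nat.le_succ _))
  refine ⟨div_pos (by linarith) hp, ?_, div_mul_cancel₀ _ hp.ne'⟩
  rw [div_le_iff₀ ht] at hge
  rw [partLen, div_le_iff₀ hp]
  linarith

lemma thin_pos (hm : Big m) : 0 < thin m := by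
  obtain ⟨h0, h1, -⟩ := partLen_bounds hm
  exact pos_of_mul_pos_left (h0.trans_le h1) (SegRound.margin_le hm).1.le

lemma axis_mem_skel (t : ℝ) : (t • eT : E m) ∈ skel m 1 := ⟨t, 0, Or.inl (by simp)⟩

/-- An axis segment inside the unit one is thin. -/
lemma axisSeg_thin (hm : Big m) {a b : ℝ} (ha : 0 ≤ a) (hb : b ≤ 1) :
    Thin (axisSeg (m := m) a b) := by
  rintro _ ⟨t, ht, rfl⟩
  have e : tco (t • eT : E m) = t := by rw [tco_smul, tco_eT, mul_one]
  dsimp only
  rw [e, sub_self, norm_zero]
  exact ⟨⟨ha.trans ht.1, ht.2.trans hb⟩,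
    mul_nonneg (thin_pos hm).le (le_min (ha.trans ht.1) (by linarith [ht.2]))⟩

lemma clampT_le_out {A : ℝ} {k : ℕ} {x y : E m} (h : tco y ≤ A * k ∨ A * (k + 1) ≤ tco y) :
    clampT A k x ≤ dist x y := by
  have hd := abs_le.1 ((abs_tco_le (x - y)).trans_eq (dist_eq_norm x y).symm)
  rw [tco_sub] at hd
  refine max_le dist_nonneg ?_
  rcases h with h | h
  · exact (min_le_left _ _).trans (by linarith)
  · exact (min_le_right _ _).trans (by linarith)

/-- The data of a point of a part. -/
lemma part_point (hps : PieceSkel) (hm : Big m) (hS : Thin S) (k : Fin (parts m)) {y : E m}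
    (hy : y ∈ partMap k.val '' treeSet S (levels m) false (rootA m)) :
    partLen m * k.val ≤ tco y - margin m ∧ tco y - margin m ≤ partLen m * (k.val + 1) ∧
      ‖y - tco y • eT‖ ≤ clampT (partLen m) k.val (y - margin m • eT) / 240 := by
  obtain ⟨x, hx, rfl⟩ := hy
  obtain ⟨⟨ht0, ht1⟩, hperp⟩ :=
    treeShaped_ok hps m S (levels m) false (rootA m) hm root_aok hS x hx
  simp only [Bool.false_eq_true, if_false] at hperp
  obtain ⟨hAw, hA1, -⟩ := aok_facts hm root_aok
  obtain ⟨hh, -, -⟩ := partLen_bounds hm
  have hw : (0 : ℝ) < width m := Nat.cast_pos.2 (width_pos m)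
  have hR : (0 : ℝ) < r0 m := Nat.cast_pos.2 (r0_pos hm)
  set σ := partLen m / (rootA m * width m) with hσ
  have hσ0 : 0 ≤ σ := by positivity
  have ht : tco (partMap k.val x) = margin m + partLen m * k.val + σ * tco x := by
    simp only [partMap, partStart, tco_add, tco_smul, tco_eT, hσ, partLen]
    ring
  have hmul : σ * (rootA m * width m) = partLen m := by rw [hσ]; field_simp
  have hv0 : 0 ≤ σ * tco x := mul_nonneg hσ0 ht0
  have hv1 : σ * tco x ≤ partLen m := (mul_le_mul_of_nonneg_left ht1 hσ0).trans_eq hmul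
  refine ⟨by linarith, by linarith, ?_⟩
  have e : partMap k.val x - tco (partMap k.val x) • eT = σ • (x - tco x • eT) := by
    rw [ht, partMap, partStart, ← partLen, ← hσ]
    module
  rw [e, norm_smul, Real.norm_of_nonneg hσ0]
  have hq : tco x / rootA m ≤ width m := by rw [div_le_iff₀ (by linarith)]; linarith
  refine (mul_le_mul_of_nonneg_left (hperp.trans (mul_le_mul_of_nonneg_left
    (tau0_le hR (by positivity) hq) (by positivity))) hσ0).trans ?_
  rw [clampT, tco_sub, tco_smul, tco_eT, ht,
    show margin m + partLen m * k.val + σ * tco x - margin m * 1 - partLen m * k.val =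
      σ * tco x by ring,
    show partLen m * ((k.val : ℝ) + 1) -
      (margin m + partLen m * k.val + σ * tco x - margin m * 1) = partLen m - σ * tco x by ring,
    max_eq_right (le_min hv0 (by linarith))]
  have hmin : σ * min (tco x / rootA m) (width m - tco x / rootA m) =
      min (σ * tco x) (partLen m - σ * tco x) / rootA m := by
    rw [mul_min_of_nonneg _ _ hσ0, ← min_div_div_right (by linarith), ← hmul]
    congr 1 <;> field_simp
  rw [show ∀ q : ℝ, σ * (2 * nN m * (q / r0 m)) = 2 * ((nN m : ℝ) / r0 m) * (σ * q) from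
    fun q => by ring, hmin]
  have hn : (nN m : ℝ) / r0 m ≤ 1 := by
    rw [div_le_one hR]
    exact_mod_cast (Nat.le_self_pow (by norm_num) _).trans (nN_le_r0 hm)
  have hbig : (480 : ℝ) ≤ rootA m := by
    have h1 : (100 : ℝ) ≤ m := Nat.ofNat_le_cast.2 hm
    have h2 : (100 : ℝ) ≤ width m := h1.trans ((le_self_pow₀ (by linarith) (by norm_num)).trans
      ((pow_le_nN hm).trans (Nat.cast_le.2 (nN_le_width hm))))
    nlinarith
  have h0 : 0 ≤ min (σ * tco x) (partLen m - σ * tco x) := le_min hv0 (by linarith)
  calc 2 * ((nN m : ℝ) / r0 m) * (min (σ * tco x) (partLen m - σ * tco x) / rootA m)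
      ≤ 2 * 1 * (min (σ * tco x) (partLen m - σ * tco x) / rootA m) := by gcongr
    _ ≤ 2 * 1 * (min (σ * tco x) (partLen m - σ * tco x) / 480) := by gcongr
    _ = _ := by ring

lemma seg_succ (r : ℕ) : segSet (m := m) (r + 1) = ⋃ i : Option (Fin (parts m)),
    i.elim (axisSeg 0 (margin m) ∪ axisSeg (1 - margin m) 1)
      (fun k => partMap k.val '' treeSet (segSet r) (levels m) false (rootA m)) := by
  rw [segSet, iUnion_option]
  rfl

lemma seg_thin (hps : PieceSkel) (hm : Big m) (r : ℕ) : Thin (segSet (m := m) r) := by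
  induction r with
  | zero => exact axisSeg_thin hm le_rfl le_rfl
  | succ r ih =>
    obtain ⟨hmar, hmar1⟩ := SegRound.margin_le hm
    obtain ⟨hh, hsmall, hsum⟩ := partLen_bounds hm
    rw [seg_succ]
    intro x hx
    obtain ⟨_ | k, hx⟩ := mem_iUnion.1 hx
    · rcases hx with hx | hx
      · exact axisSeg_thin hm le_rfl (by linarith) x hx
      · exact axisSeg_thin hm (by linarith) le_rfl x hx
    · obtain ⟨h1, h2, h3⟩ := part_point hps hm ih k hx
      have hk : ((k.val + 1 : ℕ) : ℝ) ≤ parts m := Nat.cast_le.2 k.isLt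
      push_cast at hk
      have h4 : partLen m * (k.val + 1) ≤ 1 - 2 * margin m :=
        (mul_le_mul_of_nonneg_left hk hh.le).trans_eq hsum
      have h5 : 0 ≤ partLen m * k.val := by positivity
      refine ⟨⟨by linarith, by linarith⟩, h3.trans ?_⟩
      have h6 : clampT (partLen m) k.val (x - margin m • eT) ≤ partLen m := by
        refine max_le hh.le ((min_le_right _ _).trans ?_)
        rw [tco_sub, tco_smul, tco_eT]
        linarith
      calc clampT (partLen m) k.val (x - margin m • eT) / 240
          ≤ thin m * margin m := by linarith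
        _ ≤ thin m * min (tco x) (1 - tco x) := mul_le_mul_of_nonneg_left
            (le_min (by linarith) (by linarith)) (thin_pos hm).le

end Covering

open Covering

/-- The segment sets are thin and doubling with the constant of the skeleton. -/
theorem segCovering_ok (hps : PieceSkel) (hsep : PieceSep) (hstrip : StripSep) :
    ∀ K, SkelCovering K → SegCovering K := by
  intro K hK m r hm
  refine ⟨seg_thin hps hm r, ?_⟩
  have hsk := hK m 1 hm le_rfl
  induction r with
  | zero =>
    refine cov_of_skCov hsk ?_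
    rintro _ ⟨t, -, rfl⟩
    exact axis_mem_skel t
  | succ r ih =>
    obtain ⟨hmar, hmar1⟩ := SegRound.margin_le hm
    obtain ⟨hh, -, hsum⟩ := partLen_bounds hm
    have hpt := part_point hps hm (seg_thin hps hm r)
    rw [seg_succ]
    refine unionCovering_ok (E m) _ (skel m 1) _
      (fun i x => i.elim 0 fun k => clampT (partLen m) k.val (x - margin m • eT)) K hsk
      ?_ ?_ ?_ ?_ ?_
    · rintro (_ | k) x -
      · exact le_rfl
      · exact clampT_nonneg _ _ _
    · rintro (_ | k) x hx
      · refine ⟨x, ?_, by simp⟩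
        rcases hx with ⟨t, -, rfl⟩ | ⟨t, -, rfl⟩ <;> exact axis_mem_skel t
      · refine ⟨_, axis_mem_skel (tco x), (dist_eq_norm _ _).trans_le
          ((hpt k hx).2.2.trans ?_)⟩
        exact div_le_div_of_nonneg_left (clampT_nonneg _ _ _) (by norm_num) (by norm_num)
    · rintro (_ | k) x y - -
      · simp
      · refine (clampT_le_add (partLen m) k.val _ (y - margin m • eT)).trans_eq ?_
        rw [dist_sub_right]
        rfl
    · rintro (_ | k) j x y hne - hy
      · exact dist_nonneg
      refine (clampT_le_out (y := y - margin m • eT) ?_).trans_eq (dist_sub_right _ _ _)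
      rw [tco_sub, tco_smul, tco_eT, mul_one]
      have hk : ((k.val + 1 : ℕ) : ℝ) ≤ parts m := Nat.cast_le.2 k.isLt
      push_cast at hk
      have hk0 : 0 ≤ partLen m * k.val := by positivity
      have hk1 : partLen m * (k.val + 1) ≤ 1 - 2 * margin m :=
        (mul_le_mul_of_nonneg_left hk hh.le).trans_eq hsum
      rcases j with _ | l
      · rcases hy with ⟨t, ht, rfl⟩ | ⟨t, ht, rfl⟩ <;> simp only [tco_smul, tco_eT, mul_one]
        · exact Or.inl (by linarith [ht.2])
        · exact Or.inr (by linarith [ht.1])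
      · obtain ⟨h1, h2, -⟩ := hpt l hy
        rcases lt_or_gt_of_ne (fun h => hne (congrArg some (Fin.ext h)) : k.val ≠ l.val)
          with hlt | hlt
        · exact Or.inr ((mul_le_mul_of_nonneg_left (by exact_mod_cast hlt) hh.le).trans h1)
        · exact Or.inl (h2.trans (mul_le_mul_of_nonneg_left (by exact_mod_cast hlt) hh.le))
    · rintro (_ | k)
      · refine cov_of_skCov hsk ?_
        rintro _ (⟨t, -, rfl⟩ | ⟨t, -, rfl⟩) <;> exact axis_mem_skel t
      · have hσ : 0 < partLen m / (rootA m * width m) :=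
          div_pos hh (mul_pos (lt_of_lt_of_le one_pos root_aok.one_le)
            (Nat.cast_pos.2 (width_pos m)))
        refine cov_image (treeCovering_ok hps hsep hstrip K hK m _ _ false _ hm root_aok
          (seg_thin hps hm r) ih) _ hσ fun x y => ?_
        rw [partMap, partMap, dist_add_left, dist_smul₀, ← partLen,
          Real.norm_of_nonneg hσ.le]

end Vale.Agent.P208
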