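import Vale.Agent.P208.Covering.Facts

/-!
P208: gadgets keep to their shape and are doubling with the constant of the skeleton.
-/

noncomputable section

open Metric Set

namespace Vale.Agent.P208

namespace Covering

variable {m : ℕ} {A : ℝ} {cell : Bool} {l : ℕ} {S : Set (E m)}

lemma aok_facts (hm : Big m) (hA : AOk m l A) :
    (width m : ℝ) ^ 2 ≤ A ∧ 1 ≤ A ∧ (nN m : ℝ) + 2 ≤ A := by
  have h2 : (2 * nN m ^ 2 : ℝ) ≤ width m := by exact_mod_cast two_mul_nN_sq_le_width hm
  have hn : (1 : ℝ) ≤ nN m := Nat.one_le_cast.2 (nN_pos m)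
  refine ⟨hA.sq_le, hA.one_le, le_trans ?_ hA.sq_le⟩
  nlinarith [show (2 : ℝ) * nN m ≤ width m by nlinarith]

/-- The time spent inside an interval, clamped. -/
def clampT (A : ℝ) (k : ℕ) (x : E m) : ℝ :=
  max 0 (min (tco x - A * k) (A * (k + 1) - tco x))

lemma clampT_nonneg (A : ℝ) (k : ℕ) (x : E m) : 0 ≤ clampT A k x := le_max_left _ _

lemma clampT_le_add (A : ℝ) (k : ℕ) (x y : E m) : clampT A k x ≤ clampT A k y + dist x y := by
  have h := abs_le.1 ((abs_tco_le (x - y)).trans_eq (dist_eq_norm x y).symm)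
  rw [tco_sub] at h
  rw [clampT, clampT, ← max_add_add_right, ← min_add_add_right]
  exact max_le_max (by linarith [dist_nonneg (x := x) (y := y)])
    (min_le_min (by linarith) (by linarith))

lemma clampT_le_dist (hA : 0 ≤ A) {k k' : ℕ} (hk : k ≠ k') {x y : E m}
    (h1 : A * k' ≤ tco y) (h2 : tco y ≤ A * (k' + 1)) : clampT A k x ≤ dist x y := by
  have h := abs_le.1 ((abs_tco_le (x - y)).trans_eq (dist_eq_norm x y).symm)
  rw [tco_sub] at h
  refine max_le dist_nonneg ?_
  rcases lt_or_gt_of_ne hk with hlt | hlt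
  · have : A * (k + 1) ≤ A * k' :=
      mul_le_mul_of_nonneg_left (by exact_mod_cast hlt) hA
    exact (min_le_right _ _).trans (by linarith)
  · have : A * (k' + 1) ≤ A * k :=
      mul_le_mul_of_nonneg_left (by exact_mod_cast hlt) hA
    exact (min_le_left _ _).trans (by linarith)

lemma tau0_le {x : ℝ} (hR : 0 < (r0 m : ℝ)) (h1 : 0 ≤ x) (h2 : x ≤ width m) :
    tau0 m x ≤ min x (width m - x) / r0 m := by
  have h : 0 ≤ min x (width m - x) / r0 m := div_nonneg (le_min h1 (by linarith)) hR.le
  refine max_le h ((min_le_right _ _).trans ?_)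
  rw [← min_div_div_right hR.le, sub_zero, zero_add]

lemma le_tau0 (hm : Big m) {k : ℕ} (hk : k < width m) {c : ℝ} (h1 : c ≤ 1) :
    min c (1 - c) / r0 m ≤ tau0 m (k + c) := by
  have hR : (1 : ℝ) ≤ r0 m := Nat.one_le_cast.2 (r0_pos hm)
  have hk' : ((k + 1 : ℕ) : ℝ) ≤ width m := Nat.cast_le.2 hk
  have hk0 : (0 : ℝ) ≤ k := Nat.cast_nonneg k
  push_cast at hk'
  refine le_trans (le_min ?_ (le_min ?_ ?_)) (le_max_right _ _)
  · rw [div_le_one (by linarith)]; linarith [min_le_left c (1 - c)]
  · exact div_le_div_of_nonneg_right ((min_le_left _ _).trans (by linarith)) (by linarith)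
  · exact div_le_div_of_nonneg_right ((min_le_right _ _).trans (by linarith)) (by linarith)

/-- The data of a point of a piece: a point `P` of the wire and a small deviation. -/
lemma piece_point (hps : PieceSkel) (hm : Big m) (hA : AOk m l A) (hS : Thin S) (w : Wire m)
    {k : ℕ} (hk : k < width m) {x : E m}
    (hx : x ∈ segMap (wirePt A cell w k) (wirePt A cell w ((k + 1 : ℕ) : ℝ)) '' S) :
    ∃ c ∈ Icc (0 : ℝ) 1, ‖x - wirePt A cell w (k + c)‖ ≤ min c (1 - c) / gridDen m / 2000 ∧
      wirePt A cell w (k + c) ∈ skel m A ∧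
      |tco x - A * (k + c)| ≤ min c (1 - c) / gridDen m / 2000 ∧
      A * k ≤ tco x ∧ tco x ≤ A * (k + 1) := by
  obtain ⟨s, hs, rfl⟩ := hx
  obtain ⟨hc, hthin⟩ := hS s hs
  obtain ⟨hAw, hA1, hAn⟩ := aok_facts hm hA
  obtain ⟨hlo, hhi⟩ := norm_wire_sub A (by linarith) hm cell w k
  obtain ⟨haff, hsk⟩ := hps m A cell w k (tco s) hm hA1 hk hc
  have hne : wirePt A cell w k ≠ wirePt A cell w ((k + 1 : ℕ) : ℝ) := fun h => by
    rw [h, sub_self, norm_zero] at hlo; linarith
  have hmin : 0 ≤ min (tco s) (1 - tco s) := le_min hc.1 (by linarith [hc.2])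
  have hg : (1 : ℝ) ≤ gridDen m := Nat.one_le_cast.2 (gridDen_pos hm)
  have hr : 0 < rootA m := by linarith [hA.2]
  have hd : ‖segMap (wirePt A cell w k) (wirePt A cell w ((k + 1 : ℕ) : ℝ)) s -
      wirePt A cell w (k + tco s)‖ ≤ min (tco s) (1 - tco s) / gridDen m / 2000 := by
    rw [haff, segMap_sub _ _ hne]
    refine (mul_le_mul (hhi.trans (show A + nN m + 2 ≤ 2 * rootA m by linarith [hA.2])) hthin
      (norm_nonneg _) (by linarith)).trans_eq ?_
    rw [thin]; field_simp; ring
  have ht : |tco (segMap (wirePt A cell w k) (wirePt A cell w ((k + 1 : ℕ) : ℝ)) s) -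
      A * (k + tco s)| ≤ min (tco s) (1 - tco s) / gridDen m / 2000 := by
    rw [← tco_wirePt A cell w, ← tco_sub]
    exact (abs_tco_le _).trans hd
  have hle : min (tco s) (1 - tco s) / gridDen m / 2000 ≤ A * min (tco s) (1 - tco s) :=
    (div_le_self (div_nonneg hmin (by linarith)) (by norm_num)).trans
      ((div_le_self hmin hg).trans (le_mul_of_one_le_left hmin hA1))
  have ha := abs_le.1 ht
  refine ⟨tco s, hc, hd, hsk, ht, ?_, ?_⟩
  · nlinarith [min_le_left (tco s) (1 - tco s)]
  · nlinarith [min_le_right (tco s) (1 - tco s)]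

lemma dist_rungMap (hm : Big m) (A : ℝ) (cell : Bool) (s : Sheet m) (i : Fin (nN m)) :
    0 < rungLen A cell s i / nN m ∧ ∀ x y, dist (rungMap A cell s i x) (rungMap A cell s i y) =
      rungLen A cell s i / nN m * dist x y := by
  have h : 0 < rungLen A cell s i / nN m :=
    div_pos (by linarith [one_le_rungLen hm A cell s i]) (Nat.cast_pos.2 (nN_pos m))
  exact ⟨h, dist_similarity _ h.le _⟩

lemma lane_window (hm : Big m) (s : Sheet m) (i : Fin (nN m)) (q : Fin (nN m + 1)) {c : ℝ}
    (h0 : 0 ≤ c) (h1 : c ≤ 1) :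
    wirePt A cell (.lane s q) (winStart s i + c) =
      (A * (winStart s i + c)) • eT + (q.val : ℝ) • eZ +
        (match s with
          | none => 0
          | some j => bProf m q.val • eL j) := by
  obtain ⟨h2, h3, -⟩ := window_profiles hm s i ⟨h0, h1⟩
  rcases s with _ | j <;> simp [wirePt, wireZ, wireL, h2, h3]

/-- The data of a point of the child of a rung. -/
lemma rung_point (hm : Big m) (hA : AOk m (l + 1) A) (s : Sheet m) (i : Fin (nN m)) {x : E m}
    (hx : TreeShape true (childA A cell s i) x) :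
    ∃ c ∈ Icc (0 : ℝ) 1, ∃ d ∈ Icc (0 : ℝ) 1,
      (let R := (1 - d) • wirePt A cell (.lane s i.castSucc) (winStart s i + c) +
          d • wirePt A cell (.lane s i.succ) (winStart s i + c)
       tco (rungMap A cell s i x) = A * (winStart s i + c) ∧
        ‖rungMap A cell s i x - R‖ ≤ 4 / nN m ∧
        ‖rungMap A cell s i x - R‖ ≤ 2 * (A * min c (1 - c)) / (width m : ℝ) ^ 2 ∧
        R ∈ skel m A) := by
  obtain ⟨⟨ht0, ht1⟩, hz⟩ := hx
  simp only [if_true] at hz
  obtain ⟨z, ⟨hz0, hz1⟩, hz⟩ := hz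
  set A' := childA A cell s i with hA'
  obtain ⟨hA'w, hA'1, -⟩ := aok_facts hm (childA_aok hm hA cell s i)
  rw [← hA'] at hA'w hA'1
  obtain ⟨-, hA1, -⟩ := aok_facts hm hA
  have hl1 := one_le_rungLen hm A cell s i
  have hl2 : rungLen A cell s i ≤ 2 := (rungLen_le hm A cell s i).trans (by norm_num)
  have hn : (0 : ℝ) < nN m := Nat.cast_pos.2 (nN_pos m)
  have hw : (0 : ℝ) < width m := Nat.cast_pos.2 (width_pos m)
  have hAw' : 0 < A' * width m := by positivity
  set L := rungLen A cell s i
  set c := tco x / (A' * width m) with hc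
  set d := z / nN m with hd
  have hscale : L / nN m * (A' * width m) = A := by
    linear_combination width_mul_childA hm A cell s i
  have hc0 : 0 ≤ c := by positivity
  have hc1 : c ≤ 1 := (div_le_one hAw').2 ht1
  have hd0 : 0 ≤ d := by positivity
  have hd1 : d ≤ 1 := (div_le_one hn).2 hz1
  have htc : L / nN m * tco x = A * c := by rw [← hscale, hc]; field_simp
  set lo := rungLo A cell s i with hlo
  set hi := rungHi A cell s i with hhi
  have hdiff : hi - lo = eZ + rungLabel s i := rungHi_sub_rungLo hm A cell s i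
  set U := refl eZ (dirU lo hi) with hU
  have hRT : U (eT : E m) = eT := rungU_eT hm A cell s i
  have hRZ : L • U (eZ : E m) = hi - lo := (rungU_eZ hm A cell s i).trans hdiff.symm
  set e := x - tco x • eT - z • eZ with he
  have het : tco (U e) = 0 := by
    rw [← inner_eT, ← hRT, LinearIsometryEquiv.inner_map_map, inner_eT, he]
    simp [tco_sub, tco_smul, tco_eT, tco_eZ]
  have hR : rungMap A cell s i x = lo + (A * c) • eT + d • (hi - lo) + (L / nN m) • U e := by
    have hxe : x = tco x • eT + z • eZ + e := by rw [he]; abel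
    have hzu : (L / nN m * z) • U (eZ : E m) = d • (hi - lo) := by
      rw [← hRZ, smul_smul, hd]
      congr 1
      ring
    rw [rungMap, ← hlo, ← hhi, ← hU]
    conv_lhs => rw [hxe, map_add, map_add, map_smul, map_smul, hRT]
    rw [smul_add, smul_add, smul_smul, smul_smul, htc, hzu]
    module
  have hA0 : lo = wirePt A cell (.lane s i.castSucc) (winStart s i + 0) := by rw [add_zero]; rfl
  have hA1' : hi = wirePt A cell (.lane s i.succ) (winStart s i + 0) := by rw [add_zero]; rfl
  have hpt : (1 - d) • wirePt A cell (.lane s i.castSucc) (winStart s i + c) +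
      d • wirePt A cell (.lane s i.succ) (winStart s i + c) = lo + (A * c) • eT + d • (hi - lo) := by
    rw [hA0, hA1', lane_window hm s i _ hc0 hc1, lane_window hm s i _ hc0 hc1,
      lane_window hm s i _ le_rfl zero_le_one, lane_window hm s i _ le_rfl zero_le_one]
    module
  refine ⟨c, ⟨hc0, hc1⟩, d, ⟨hd0, hd1⟩, ?_⟩
  dsimp only
  refine ⟨?_, ?_, ?_, ?_⟩
  · rw [hR, tco_add, tco_smul, het, mul_zero, add_zero, hdiff, tco_add, tco_add, tco_smul,
      tco_smul, tco_eT, tco_add, tco_eZ, tco_rungLabel, hlo, rungLo, tco_wirePt]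
    ring
  · rw [hR, hpt, add_sub_cancel_left, norm_smul, LinearIsometryEquiv.norm_map,
      Real.norm_of_nonneg (by positivity), he]
    refine (mul_le_mul (div_le_div_of_nonneg_right hl2 hn.le)
      (hz.trans (show (2 : ℝ) * tau0 m (tco x / A') ≤ 2 * 1 by
        linarith [trap_le_one 0 (width m) (r0 m) (tco x / A'),
          show tau0 m (tco x / A') = trap 0 (width m) (r0 m) (tco x / A') from rfl]))
      (norm_nonneg _) (by positivity)).trans_eq ?_
    ring
  · rw [hR, hpt, add_sub_cancel_left, norm_smul, LinearIsometryEquiv.norm_map,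
      Real.norm_of_nonneg (by positivity), he]
    have hr : (1 : ℝ) ≤ r0 m := Nat.one_le_cast.2 (r0_pos hm)
    have hq : tco x / A' = c * width m := by rw [hc]; field_simp
    have ht := tau0_le (by linarith) (show 0 ≤ c * width m by positivity)
      (mul_le_of_le_one_left hw.le hc1)
    rw [← hq] at ht
    refine (mul_le_mul_of_nonneg_left (hz.trans (mul_le_mul_of_nonneg_left
      (ht.trans (div_le_self (le_min (by rw [hq]; positivity)
        (by rw [hq]; linarith [mul_le_of_le_one_left hw.le hc1])) hr))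
      zero_le_two)) (by positivity)).trans ?_
    rw [hq,
      show (width m : ℝ) - c * width m = (1 - c) * width m by ring, ← min_mul_of_nonneg _ _ hw.le]
    have hmin : 0 ≤ min c (1 - c) := le_min hc0 (by linarith)
    calc L / nN m * (2 * (min c (1 - c) * width m))
        = 2 * (A * min c (1 - c)) / A' := by rw [← hscale]; field_simp
      _ ≤ 2 * (A * min c (1 - c)) / (width m : ℝ) ^ 2 :=
          div_le_div_of_nonneg_left (by positivity) (by positivity) hA'w
  · rw [lane_window hm s i _ hc0 hc1, lane_window hm s i _ hc0 hc1]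
    refine ⟨A * (winStart s i + c), i.val + d, ?_⟩
    rcases s with _ | j
    · left
      simp only [Fin.val_succ, Fin.val_castSucc]
      push_cast
      module
    · right; left
      refine ⟨j, ?_⟩
      obtain ⟨-, h3, -⟩ := window_profiles hm (some j) i (c := c) ⟨hc0, hc1⟩
      rw [mul_div_cancel_left₀ _ (by linarith : A ≠ 0), h3, bProf_affine hm i.isLt hd0 hd1]
      simp only [Fin.val_succ, Fin.val_castSucc]
      push_cast
      module

lemma piece_shape {m l : ℕ} {S : Set (E m)} {cell : Bool} {A : ℝ} (hps : PieceSkel) (hm : Big m)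
    (hA : AOk m l A) (hS : Thin S) (w : Wire m) {k : ℕ} (hk : k < width m) {x : E m}
    (hx : x ∈ segMap (pieceOf A cell w k).2.1 (pieceOf A cell w k).2.2 '' S) :
    TreeShape cell A x := by
  obtain ⟨c, ⟨hc0, hc1⟩, hd, -, ht, hlo, hhi⟩ := piece_point hps hm hA hS w hk hx
  obtain ⟨-, hA1, -⟩ := aok_facts hm hA
  have hk' : ((k + 1 : ℕ) : ℝ) ≤ width m := Nat.cast_le.2 hk
  push_cast at hk'
  refine ⟨⟨(by positivity : (0 : ℝ) ≤ A * k).trans hlo,
    hhi.trans (mul_le_mul_of_nonneg_left hk' (by linarith))⟩, ?_⟩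
  set δ := min c (1 - c) / gridDen m / 2000 with hδ
  have hmin : 0 ≤ min c (1 - c) := le_min hc0 (by linarith)
  have hr : (0 : ℝ) < r0 m := Nat.cast_pos.2 (r0_pos hm)
  have hδ0 : 0 ≤ δ := by positivity
  have hτ : δ ≤ tau0 m (k + c) / 2000 := by
    refine div_le_div_of_nonneg_right ((div_le_div_of_nonneg_left hmin hr
      (Nat.cast_le.2 (gridDen_ge hm))).trans (le_tau0 hm hk hc1)) (by norm_num)
  have hτx : tau0 m (k + c) ≤ tau0 m (tco x / A) + δ := by
    refine le_trans (sub_le_iff_le_add'.1 (le_of_abs_le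
      (trap_lipschitz (a := 0) (L := width m) hr (k + c) (tco x / A)))) (add_le_add le_rfl ?_)
    refine (div_le_self (abs_nonneg _) (Nat.one_le_cast.2 (r0_pos hm))).trans (le_trans ?_ ht)
    rw [show (k : ℝ) + c - tco x / A = (A * (k + c) - tco x) / A by field_simp, abs_div,
      abs_sub_comm, abs_of_pos (by linarith : 0 < A)]
    exact div_le_self (abs_nonneg _) hA1
  have hdev : ∀ z : ℝ, ‖x - tco x • eT - z • eZ‖ ≤
      |wireZ cell w (k + c) - z| + tau0 m (k + c) + 2 * δ := fun z => by
    have e : x - tco x • eT - z • eZ = (wireZ cell w (k + c) - z) • eZ + wireL w (k + c) +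
        ((x - wirePt A cell w (k + c)) - (tco x - A * (k + c)) • eT) := by
      simp only [wirePt]; module
    rw [e]
    refine (norm_add₃_le).trans (add_le_add_three ?_ (norm_wireL hm w _) ?_)
    · rw [norm_smul, norm_eZ, mul_one, Real.norm_eq_abs]
    · refine (norm_sub_le _ _).trans ?_
      rw [norm_smul, norm_eT, mul_one, Real.norm_eq_abs]
      linarith
  obtain ⟨hz0, hz1, hz2⟩ := wireZ_bounds cell w (k + c)
  cases cell with
  | false =>
    have hn : (2 : ℝ) ≤ nN m := by
      refine le_trans ?_ (pow_le_nN hm)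
      have : (100 : ℝ) ≤ m := Nat.ofNat_le_cast.2 hm
      calc (2 : ℝ) ≤ (m : ℝ) ^ 1 := by linarith
        _ ≤ (m : ℝ) ^ 6 := pow_le_pow_right₀ (by linarith) (by norm_num)
    have h := hdev 0
    rw [zero_smul, sub_zero, sub_zero, abs_of_nonneg hz0] at h
    simp only [Bool.false_eq_true, if_false]
    nlinarith [hz2 rfl]
  | true =>
    simp only [if_true]
    refine ⟨_, ⟨hz0, hz1⟩, ?_⟩
    have h := hdev (wireZ true w (k + c))
    rw [sub_self, abs_zero] at h
    linarith

lemma rung_shape {m l : ℕ} {cell : Bool} {A : ℝ} (hm : Big m) (hA : AOk m (l + 1) A) (s : Sheet m)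
    (i : Fin (nN m)) {x : E m} (hx : TreeShape true (childA A cell s i) x) :
    TreeShape cell A (rungMap A cell s i x) := by
  obtain ⟨c, ⟨hc0, hc1⟩, d, ⟨hd0, hd1⟩, ht, herr, -, -⟩ := rung_point hm hA s i hx
  obtain ⟨-, hA1, -⟩ := aok_facts hm hA
  have hk' : ((winStart s i + 1 : ℕ) : ℝ) ≤ width m := Nat.cast_le.2 (winStart_lt s i)
  push_cast at hk'
  refine ⟨by rw [ht]; exact ⟨by positivity,
    mul_le_mul_of_nonneg_left (by linarith) (by linarith)⟩, ?_⟩
  have h1 : tau0 m (tco (rungMap A cell s i x) / A) = 1 := by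
    rw [ht, mul_div_cancel_left₀ _ (by linarith : A ≠ 0)]
    exact (window_profiles hm s i ⟨hc0, hc1⟩).1
  rw [h1, ht]
  have hn : (100 : ℝ) ≤ nN m := by
    refine le_trans ?_ (pow_le_nN hm)
    have : (100 : ℝ) ≤ m := Nat.ofNat_le_cast.2 hm
    calc (100 : ℝ) ≤ (m : ℝ) ^ 1 := by linarith
      _ ≤ (m : ℝ) ^ 6 := pow_le_pow_right₀ (by linarith) (by norm_num)
  have h4 : (4 : ℝ) / nN m ≤ 1 / 25 := by
    rw [div_le_div_iff₀ (by linarith) (by norm_num)]; linarith
  set R := (1 - d) • wirePt A cell (.lane s i.castSucc) (winStart s i + c) +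
    d • wirePt A cell (.lane s i.succ) (winStart s i + c) with hRdef
  have hlab : ∀ q : Fin (nN m + 1),
      ‖wireL (.lane s q) (winStart s i + c : ℝ)‖ ≤ 1 := fun q =>
    (norm_wireL hm _ _).trans (trap_le_one _ _ _ _)
  have e : R = (A * (winStart s i + c)) • eT + ((i.val : ℝ) + d) • eZ +
      ((1 - d) • wireL (.lane s i.castSucc) (winStart s i + c) +
        d • wireL (.lane s i.succ) (winStart s i + c)) := by
    rw [hRdef]
    simp only [wirePt, wireZ, (window_profiles hm s i (c := c) ⟨hc0, hc1⟩).1,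
      Fin.val_succ, Fin.val_castSucc]
    push_cast
    module
  have hz : (i.val : ℝ) + d ∈ Icc (0 : ℝ) (nN m) := by
    have : ((i.val + 1 : ℕ) : ℝ) ≤ nN m := Nat.cast_le.2 i.isLt
    push_cast at this
    exact ⟨by positivity, by linarith⟩
  have hb : ‖rungMap A cell s i x - (A * (winStart s i + c)) • eT -
      ((i.val : ℝ) + d) • eZ‖ ≤ 1 + 4 / nN m := by
    have e2 : rungMap A cell s i x - (A * (winStart s i + c)) • eT - ((i.val : ℝ) + d) • eZ =
        (rungMap A cell s i x - R) + ((1 - d) • wireL (.lane s i.castSucc) (winStart s i + c) +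
          d • wireL (.lane s i.succ) (winStart s i + c)) := by
      rw [e]; abel
    rw [e2]
    refine (norm_add_le _ _).trans ?_
    have h := norm_add_le ((1 - d) • wireL (.lane s i.castSucc) (winStart s i + c : ℝ))
      (d • wireL (.lane s i.succ) (winStart s i + c : ℝ))
    rw [norm_smul, norm_smul, Real.norm_of_nonneg (by linarith), Real.norm_of_nonneg hd0] at h
    nlinarith [hlab i.castSucc, hlab i.succ]
  cases cell with
  | false =>
    simp only [Bool.false_eq_true, if_false]
    have h := norm_add_le (rungMap A false s i x - (A * (winStart s i + c)) • eT -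
      ((i.val : ℝ) + d) • eZ) (((i.val : ℝ) + d) • eZ)
    rw [sub_add_cancel, norm_smul, norm_eZ, mul_one, Real.norm_of_nonneg hz.1] at h
    linarith [hz.2]
  | true =>
    simp only [if_true]
    exact ⟨_, hz, hb.trans (by linarith)⟩

lemma scaled_lip {m : ℕ} {A : ℝ} (hm : Big m) (hA1 : 1 ≤ A) {a b e : ℝ} (h : a ≤ b + e)
    (he : 0 ≤ e) :
    a / (8 * A * gridDen m) ≤ b / (8 * A * gridDen m) + e := by
  have : (1 : ℝ) ≤ gridDen m := Nat.one_le_cast.2 (gridDen_pos hm)
  have h8 : (1 : ℝ) ≤ 8 * A * gridDen m := by nlinarith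
  refine (div_le_div_of_nonneg_right h (by linarith)).trans ?_
  rw [add_div]
  linarith [div_le_self he h8]

lemma rung_lip {m : ℕ} (hm : Big m) {a b e : ℝ} (h : a ≤ b + e)
    (he : 0 ≤ e) :
    min 1 a / (8 * (m : ℝ) ^ 2) ≤ min 1 b / (8 * (m : ℝ) ^ 2) + e := by
  have hm' : (100 : ℝ) ≤ m := Nat.ofNat_le_cast.2 hm
  have h8 : (1 : ℝ) ≤ 8 * (m : ℝ) ^ 2 := by nlinarith
  have h1 : min 1 a ≤ min 1 b + e := by
    rw [← min_add_add_right]; exact min_le_min (by linarith) h
  refine (div_le_div_of_nonneg_right h1 (by linarith)).trans ?_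
  rw [add_div]
  linarith [div_le_self he h8]

lemma piece_cov {m l K : ℕ} {S : Set (E m)} {cell : Bool} {A : ℝ} (hm : Big m) (hA : AOk m l A)
    (w : Wire m) (k : ℕ) (hcov : Cov K S) :
    Cov K (segMap (pieceOf A cell w k).2.1 (pieceOf A cell w k).2.2 '' S) := by
  obtain ⟨-, hA1, -⟩ := aok_facts hm hA
  exact cov_image hcov _ (lt_of_lt_of_le (by linarith)
    (norm_wire_sub A (by linarith) hm cell w k).1) (dist_segMap _ _)

lemma piece_near {m l : ℕ} {S : Set (E m)} {cell : Bool} {A : ℝ} (hps : PieceSkel) (hm : Big m)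
    (hA : AOk m l A) (hS : Thin S) (w : Wire m) {k : ℕ} (hk : k < width m) {x : E m}
    (hx : x ∈ segMap (pieceOf A cell w k).2.1 (pieceOf A cell w k).2.2 '' S) :
    ∃ y ∈ skel m A, dist x y ≤ clampT A k x / (8 * A * gridDen m) / 120 := by
  obtain ⟨c, ⟨hc0, hc1⟩, hd, hsk, ht, -, -⟩ := piece_point hps hm hA hS w hk hx
  obtain ⟨-, hA1, -⟩ := aok_facts hm hA
  refine ⟨_, hsk, (dist_eq_norm _ _).trans_le (hd.trans ?_)⟩
  have hg : (1 : ℝ) ≤ gridDen m := Nat.one_le_cast.2 (gridDen_pos hm)
  have hmin : 0 ≤ min c (1 - c) := le_min hc0 (by linarith)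
  have hu : min c (1 - c) / gridDen m ≤ min c (1 - c) := div_le_self hmin hg
  have h1 : A * min c (1 - c) - min c (1 - c) / gridDen m / 2000 ≤ clampT A k x := by
    have hb := abs_le.1 ht
    refine le_trans (le_min ?_ ?_) (le_max_right _ _) <;>
      nlinarith [min_le_left c (1 - c), min_le_right c (1 - c)]
  rw [div_div, div_div, div_le_div_iff₀ (by positivity) (by positivity)]
  nlinarith [mul_le_mul_of_nonneg_left hu (by linarith : (0 : ℝ) ≤ gridDen m),
    mul_le_mul_of_nonneg_left hA1 (mul_nonneg hmin (by linarith : (0 : ℝ) ≤ gridDen m))]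

lemma clamp_up {m : ℕ} {A c : ℝ} {k : ℕ} {x : E m} (hA1 : 1 ≤ A) (hc : 0 ≤ min c (1 - c))
    (hg : 1 ≤ (gridDen m : ℝ))
    (ht : |tco x - A * (k + c)| ≤ min c (1 - c) / gridDen m / 2000) :
    clampT A k x / (8 * A * gridDen m) ≤ min c (1 - c) / gridDen m / 7 := by
  have hb := abs_le.1 ht
  have hu : min c (1 - c) / gridDen m ≤ A * min c (1 - c) :=
    (div_le_self hc hg).trans (le_mul_of_one_le_left hc hA1)
  have hle : clampT A k x ≤ 8 / 7 * (A * min c (1 - c)) := by
    refine max_le (by positivity) ?_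
    rcases le_total c (1 - c) with h | h
    · rw [min_eq_left h] at hu hb ⊢
      exact (min_le_left _ _).trans (by nlinarith)
    · rw [min_eq_right h] at hu hb ⊢
      exact (min_le_right _ _).trans (by nlinarith)
  rw [div_le_iff₀ (by positivity)]
  refine hle.trans_eq ?_
  field_simp

lemma piece_sep {m l : ℕ} {S : Set (E m)} {cell : Bool} {A : ℝ} (hps : PieceSkel) (hsep : PieceSep)
    (hm : Big m) (hA : AOk m l A) (hS : Thin S) (w w' : Wire m) {k k' : ℕ} (hk : k < width m)
    (hk' : k' < width m) (hne : pieceOf A cell w k ≠ pieceOf A cell w' k') {x y : E m}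
    (hx : x ∈ segMap (pieceOf A cell w k).2.1 (pieceOf A cell w k).2.2 '' S)
    (hy : y ∈ segMap (pieceOf A cell w' k').2.1 (pieceOf A cell w' k').2.2 '' S) :
    clampT A k x / (8 * A * gridDen m) ≤ dist x y := by
  obtain ⟨c, ⟨hc0, hc1⟩, hd, -, ht, -, -⟩ := piece_point hps hm hA hS w hk hx
  obtain ⟨c', ⟨hc0', hc1'⟩, hd', -, ht', hlo', hhi'⟩ := piece_point hps hm hA hS w' hk' hy
  obtain ⟨-, hA1, hAn⟩ := aok_facts hm hA
  have hg : (1 : ℝ) ≤ gridDen m := Nat.one_le_cast.2 (gridDen_pos hm)
  rcases eq_or_ne k k' with rfl | hkk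
  · have hs := hsep m A cell w w' k c hm hA1 hk ⟨hc0, hc1⟩ hne
    have haff : ‖wirePt A cell w' (k + c') - wirePt A cell w' (k + c)‖ ≤ 2 * A * |c' - c| := by
      rw [(hps m A cell w' k c' hm hA1 hk ⟨hc0', hc1'⟩).1,
        (hps m A cell w' k c hm hA1 hk ⟨hc0, hc1⟩).1,
        show ∀ p q : E m, ((1 - c') • p + c' • q) - ((1 - c) • p + c • q) = (c' - c) • (q - p)
          from fun p q => by module,
        norm_smul, Real.norm_eq_abs, mul_comm]
      exact mul_le_mul_of_nonneg_right
        ((norm_wire_sub A (by linarith) hm cell w' k).2.trans (by linarith)) (abs_nonneg _)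
    set u := min c (1 - c) / gridDen m with hu
    set v := min c' (1 - c') / gridDen m with hv
    set D := dist x y + u / 2000 + v / 2000 with hD
    have hxy := dist_eq_norm x y
    have hT : A * |c' - c| ≤ D := by
      have h1 := abs_le.1 ht
      have h2 := abs_le.1 ht'
      have h3 := abs_le.1 ((abs_tco_le (x - y)).trans_eq hxy.symm)
      rw [tco_sub] at h3
      rw [← abs_of_pos (by linarith : 0 < A), ← abs_mul, abs_le]
      constructor <;> linarith
    have huD : u ≤ 3 * D := by
      refine hs.trans ?_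
      rw [show wirePt A cell w (k + c) - wirePt A cell w' (k + c) =
        -(x - wirePt A cell w (k + c)) + ((x - y) + (y - wirePt A cell w' (k + c'))) +
          (wirePt A cell w' (k + c') - wirePt A cell w' (k + c)) by abel]
      refine norm_add₃_le.trans ?_
      rw [norm_neg]
      linarith [norm_add_le (x - y) (y - wirePt A cell w' (k + c'))]
    have hvu : v ≤ u + D := by
      have : min c' (1 - c') ≤ min c (1 - c) + |c' - c| := by
        rw [← min_add_add_right]
        exact min_le_min (by linarith [le_abs_self (c' - c)])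
          (by linarith [neg_abs_le (c' - c)])
      refine (div_le_div_of_nonneg_right this (by linarith)).trans ?_
      rw [add_div]
      linarith [div_le_self (abs_nonneg (c' - c)) hg,
        le_mul_of_one_le_left (abs_nonneg (c' - c)) hA1]
    have hu0 : 0 ≤ u := div_nonneg (le_min hc0 (by linarith)) (by linarith)
    linarith [clamp_up hA1 (le_min hc0 (by linarith)) hg ht, dist_nonneg (x := x) (y := y)]
  · have h8 : (1 : ℝ) ≤ 8 * A * gridDen m := by nlinarith
    exact (div_le_self (clampT_nonneg _ _ _) h8).trans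
      (clampT_le_dist (by linarith) hkk hlo' hhi')

lemma rung_near {m l : ℕ} {cell : Bool} {A : ℝ} (hm : Big m) (hA : AOk m (l + 1) A) (s : Sheet m)
    (i : Fin (nN m)) {x : E m} (hx : TreeShape true (childA A cell s i) x) :
    ∃ y ∈ skel m A, dist (rungMap A cell s i x) y ≤
      min 1 (clampT A (winStart s i) (rungMap A cell s i x)) / (8 * (m : ℝ) ^ 2) / 120 := by
  obtain ⟨c, ⟨hc0, hc1⟩, d, -, ht, h4, h2, hsk⟩ := rung_point hm hA s i hx
  obtain ⟨-, hA1, -⟩ := aok_facts hm hA
  have hm' : (100 : ℝ) ≤ m := Nat.ofNat_le_cast.2 hm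
  have hn := pow_le_nN hm
  have hm6 : 4000 * (m : ℝ) ^ 2 ≤ (m : ℝ) ^ 6 := by
    nlinarith [mul_le_mul hm' hm' (by norm_num) (by linarith : (0 : ℝ) ≤ m), sq_nonneg ((m : ℝ) ^ 2)]
  refine ⟨_, hsk, (dist_eq_norm _ _).trans_le ?_⟩
  have hc' : A * min c (1 - c) ≤ clampT A (winStart s i) (rungMap A cell s i x) := by
    rw [clampT, ht]
    refine le_trans (le_min ?_ ?_) (le_max_right _ _) <;>
      nlinarith [min_le_left c (1 - c), min_le_right c (1 - c)]
  rw [div_div]
  rcases le_total 1 (clampT A (winStart s i) (rungMap A cell s i x)) with h | h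
  · rw [min_eq_left h]
    refine h4.trans ?_
    rw [div_le_div_iff₀ (by linarith [pow_pos (by linarith : (0 : ℝ) < m) 6]) (by positivity)]
    linarith
  · rw [min_eq_right h]
    refine h2.trans ?_
    have hw : (m : ℝ) ^ 6 ≤ width m := hn.trans (Nat.cast_le.2 (nN_le_width hm))
    have hw1 : (1 : ℝ) ≤ width m := Nat.one_le_cast.2 (width_pos m)
    rw [div_le_div_iff₀ (by positivity) (by positivity)]
    nlinarith [clampT_nonneg A (winStart s i) (rungMap A cell s i x),
      show 2 * (8 * (m : ℝ) ^ 2 * 120) ≤ (width m : ℝ) ^ 2 by nlinarith,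
      mul_nonneg (show (0 : ℝ) ≤ A by linarith) (le_min hc0 (by linarith : (0 : ℝ) ≤ 1 - c))]

lemma piece_rung {m l : ℕ} {S : Set (E m)} {cell : Bool} {A : ℝ} (hps : PieceSkel)
    (hstrip : StripSep) (hm : Big m) (hA : AOk m (l + 1) A) (hS : Thin S) (w : Wire m) {k : ℕ}
    (hk : k < width m) (hno : ¬ Owned A cell (pieceOf A cell w k)) (s : Sheet m)
    (i : Fin (nN m)) {x y : E m}
    (hx : x ∈ segMap (pieceOf A cell w k).2.1 (pieceOf A cell w k).2.2 '' S)
    (hy : TreeShape true (childA A cell s i) y) :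
    clampT A k x / (8 * A * gridDen m) ≤ dist x (rungMap A cell s i y) ∧
      min 1 (clampT A (winStart s i) (rungMap A cell s i y)) / (8 * (m : ℝ) ^ 2) ≤
        dist x (rungMap A cell s i y) := by
  obtain ⟨c, ⟨hc0, hc1⟩, hd, -, ht, hlo, hhi⟩ := piece_point hps hm hA hS w hk hx
  obtain ⟨c', ⟨hc0', hc1'⟩, d, hd', ht', h4, -, -⟩ := rung_point hm hA s i hy
  obtain ⟨-, hA1, hAn⟩ := aok_facts hm hA
  have hm' : (100 : ℝ) ≤ m := Nat.ofNat_le_cast.2 hm
  have hg : (1 : ℝ) ≤ gridDen m := Nat.one_le_cast.2 (gridDen_pos hm)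
  have h8 : (1 : ℝ) ≤ 8 * A * gridDen m := by nlinarith
  have h8' : (1 : ℝ) ≤ 8 * (m : ℝ) ^ 2 := by nlinarith
  rcases eq_or_ne k (winStart s i) with rfl | hne
  · set q := 1 / (m : ℝ) ^ 2 with hq
    have hs := hstrip m A cell s i w c' d hm hA1 ⟨hc0', hc1'⟩ hd' hno
    rw [show 1 / (2 * (m : ℝ) ^ 2) = q / 2 by rw [hq, div_div, mul_comm]] at hs
    have hm6 : 4000 * (m : ℝ) ^ 2 ≤ nN m := by
      refine le_trans ?_ (pow_le_nN hm)
      nlinarith [mul_le_mul hm' hm' (by norm_num) (by linarith : (0 : ℝ) ≤ m),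
        sq_nonneg ((m : ℝ) ^ 2)]
    have hgn : (nN m : ℝ) ≤ gridDen m := by
      exact_mod_cast ((Nat.le_self_pow (by norm_num) _).trans (nN_le_r0 hm)).trans (gridDen_ge hm)
    have h4' : (4 : ℝ) / nN m ≤ q / 1000 := by
      rw [hq, div_div, div_le_div_iff₀ (by nlinarith) (by positivity)]; linarith
    set u := min c (1 - c) / gridDen m with hu
    have hu1 : u ≤ q / 1000 := by
      refine le_trans ?_ h4'
      have : min c (1 - c) ≤ 4 := (min_le_left _ _).trans (by linarith)
      exact div_le_div₀ (by norm_num) this (by nlinarith) hgn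
    have haff : ‖wirePt A cell w (winStart s i + c) - wirePt A cell w (winStart s i + c')‖ ≤
        2 * A * |c - c'| := by
      rw [(hps m A cell w _ c' hm hA1 hk ⟨hc0', hc1'⟩).1,
        (hps m A cell w _ c hm hA1 hk ⟨hc0, hc1⟩).1,
        show ∀ p q : E m, ((1 - c) • p + c • q) - ((1 - c') • p + c' • q) = (c - c') • (q - p)
          from fun p q => by module,
        norm_smul, Real.norm_eq_abs, mul_comm]
      exact mul_le_mul_of_nonneg_right
        ((norm_wire_sub A (by linarith) hm cell w _).2.trans (by linarith)) (abs_nonneg _)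
    set R := rungMap A cell s i y with hR
    have hxy := dist_eq_norm x R
    have hT : A * |c - c'| ≤ dist x R + u / 2000 := by
      have h1 := abs_le.1 ht
      have h3 := abs_le.1 ((abs_tco_le (x - R)).trans_eq hxy.symm)
      rw [tco_sub, ht'] at h3
      rw [← abs_of_pos (by linarith : 0 < A), ← abs_mul, abs_le]
      constructor <;> linarith
    set G := (1 - d) • wirePt A cell (.lane s i.castSucc) (winStart s i + c') +
      d • wirePt A cell (.lane s i.succ) (winStart s i + c')
    rw [show wirePt A cell w (winStart s i + c') - G =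
      -(x - wirePt A cell w (winStart s i + c)) + ((x - R) + (R - G)) +
        (-(wirePt A cell w (winStart s i + c) - wirePt A cell w (winStart s i + c'))) by abel]
      at hs
    have hs' := hs.trans norm_add₃_le
    rw [norm_neg, norm_neg] at hs'
    have hmain : q / 8 ≤ dist x R := by
      linarith [norm_add_le (x - R) (R - G), (show (0 : ℝ) ≤ q by positivity)]
    constructor
    · linarith [clamp_up hA1 (le_min hc0 (by linarith)) hg ht, (show (0 : ℝ) ≤ q by positivity)]
    · refine le_trans ?_ hmain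
      rw [hq, div_div, mul_comm ((m : ℝ) ^ 2) 8]
      exact div_le_div_of_nonneg_right (min_le_left _ _) (by linarith)
  · constructor
    · refine (div_le_self (clampT_nonneg _ _ _) h8).trans (clampT_le_dist (by linarith) hne ?_ ?_)
      · rw [ht']; exact mul_le_mul_of_nonneg_left (by linarith) (by linarith)
      · rw [ht']; exact mul_le_mul_of_nonneg_left (by linarith) (by linarith)
    · rw [dist_comm]
      exact (div_le_self (le_min zero_le_one (clampT_nonneg _ _ _)) h8').trans
        ((min_le_right _ _).trans (clampT_le_dist (by linarith) hne.symm hlo hhi))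

end Covering

open Covering

/-- Gadgets keep to their shape. -/
theorem treeShaped_ok (hps : PieceSkel) : TreeShaped := by
  intro m S l cell A hm hA hS
  induction l generalizing cell A with
  | zero =>
    intro x hx
    rw [treeSet, mem_iUnion] at hx
    obtain ⟨⟨P, w, k, hk, rfl⟩, hx⟩ := hx
    exact piece_shape hps hm hA hS w hk hx
  | succ l ih =>
    intro x hx
    rw [treeSet] at hx
    rcases hx with hx | hx
    · obtain ⟨⟨P, ⟨w, k, hk, rfl⟩, _⟩, hx'⟩ := mem_iUnion.1 hx
      exact piece_shape hps hm hA hS w hk hx'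
    · obtain ⟨⟨s, i⟩, x', hx', rfl⟩ := mem_iUnion.1 hx
      exact rung_shape hm hA s i (ih true _ (childA_aok hm hA cell s i) x' hx')

/-- Doubling of gadgets with the constant of the skeleton. -/
theorem treeCovering_ok (hps : PieceSkel) (hsep : PieceSep) (hstrip : StripSep) :
    ∀ K, SkelCovering K → TreeCovering K := by
  intro K hK m S l cell A hm hA hS hcov
  induction l generalizing cell A with
  | zero =>
    obtain ⟨hAw, hA1, -⟩ := aok_facts hm hA
    refine unionCovering_ok (E m) _ (skel m A) _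
      (fun P x => clampT A P.1.1 x / (8 * A * gridDen m)) K (hK m A hm hA1)
      ?_ ?_ ?_ ?_ ?_
    · exact fun P x _ => div_nonneg (clampT_nonneg _ _ _) (by positivity)
    · rintro ⟨P, w, k, hk, rfl⟩ x hx
      exact piece_near hps hm hA hS w hk hx
    · exact fun P x y _ _ => scaled_lip hm hA1 (clampT_le_add _ _ _ _) dist_nonneg
    · rintro ⟨P, w, k, hk, rfl⟩ ⟨P', w', k', hk', rfl⟩ x y hne hx hy
      exact piece_sep hps hsep hm hA hS w w' hk hk' (fun h => hne (Subtype.ext h)) hx hy
    · rintro ⟨P, w, k, hk, rfl⟩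
      exact piece_cov hm hA w k hcov
  | succ l ih =>
    obtain ⟨hAw, hA1, -⟩ := aok_facts hm hA
    have hY : ∀ si : Sheet m × Fin (nN m), ∀ x ∈ rungMap A cell si.1 si.2 ''
        treeSet S l true (childA A cell si.1 si.2), ∃ x', TreeShape true (childA A cell si.1 si.2) x'
          ∧ rungMap A cell si.1 si.2 x' = x := by
      rintro si x ⟨x', hx', e⟩
      exact ⟨x', treeShaped_ok hps m S l true _ hm (childA_aok hm hA cell _ _) hS x' hx', e⟩
    rw [treeSet, ← iUnion_sumElim]
    refine unionCovering_ok (E m) _ (skel m A) _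
      (Sum.elim (fun P x => clampT A P.1.1 x / (8 * A * gridDen m))
        (fun si x => min 1 (clampT A (winStart si.1 si.2) x) / (8 * (m : ℝ) ^ 2))) K
      (hK m A hm hA1) ?_ ?_ ?_ ?_ ?_
    · rintro (P | si) x -
      · exact div_nonneg (clampT_nonneg _ _ _) (by positivity)
      · exact div_nonneg (le_min zero_le_one (clampT_nonneg _ _ _)) (by positivity)
    · rintro (⟨P, ⟨w, k, hk, rfl⟩, _⟩ | ⟨s, i⟩) x hx
      · exact piece_near hps hm hA hS w hk hx
      · obtain ⟨x', hx', rfl⟩ := hY (s, i) x hx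
        exact rung_near hm hA s i hx'
    · rintro (P | si) x y - -
      · exact scaled_lip hm hA1 (clampT_le_add _ _ _ _) dist_nonneg
      · exact rung_lip hm (clampT_le_add _ _ _ _) dist_nonneg
    · rintro (⟨P, ⟨w, k, hk, rfl⟩, hno⟩ | ⟨s, i⟩) (⟨P', ⟨w', k', hk', rfl⟩, hno'⟩ | ⟨s', i'⟩)
        x y hne hx hy
      · exact piece_sep hps hsep hm hA hS w w' hk hk'
          (fun h => hne (congrArg Sum.inl (Subtype.ext h))) hx hy
      · obtain ⟨y', hy', rfl⟩ := hY (s', i') y hy
        exact (piece_rung hps hstrip hm hA hS w hk hno s' i' hx hy').1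
      · obtain ⟨x', hx', rfl⟩ := hY (s, i) x hx
        rw [dist_comm]
        exact (piece_rung hps hstrip hm hA hS w' hk' hno' s i hy hx').2
      · obtain ⟨y', hy', rfl⟩ := hY (s', i') y hy
        have hne' : winStart s i ≠ winStart s' i' := fun h =>
          hne (by obtain ⟨rfl, rfl⟩ := winStart_injective h; rfl)
        obtain ⟨c, ⟨hc0, hc1⟩, d, -, ht, -⟩ := rung_point hm hA s' i' hy'
        have hm2 : (1 : ℝ) ≤ 8 * (m : ℝ) ^ 2 := by
          have : (100 : ℝ) ≤ m := Nat.ofNat_le_cast.2 hm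
          nlinarith
        refine (div_le_self (le_min zero_le_one (clampT_nonneg _ _ _)) hm2).trans
          ((min_le_right _ _).trans (clampT_le_dist (by linarith) hne' ?_ ?_))
        · rw [ht]; exact mul_le_mul_of_nonneg_left (by linarith) (by linarith)
        · rw [ht]; exact mul_le_mul_of_nonneg_left (by linarith) (by linarith)
    · rintro (⟨P, ⟨w, k, hk, rfl⟩, _⟩ | ⟨s, i⟩)
      · exact piece_cov hm hA w k hcov
      · exact cov_image (ih true _ (childA_aok hm hA cell s i)) _ (dist_rungMap hm A cell s i).1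
          (dist_rungMap hm A cell s i).2

end Vale.Agent.P208
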